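import Vale.Agent.P272.K.Inv.Hess
import Vale.Agent.P272.K.C2.Wirt
import Vale.Agent.P253.Bdl.B1

/-!
# P253Z, block B1b: Hermitian forms attached to real bilinear forms
-/

open scoped ContDiff Topology ComplexConjugate ComplexOrder Matrix
open Filter Complex Vale.Agent.P253.Mfd
open Vale.Agent.P272.K (Cm dz dzb cHess)

set_option linter.unusedSectionVars false

noncomputable section

namespace Vale.Agent.P253Z.MC

variable {n : ℕ}

theorem single_I (j : Fin n) : (Pi.single j I : Cm n) = I • Pi.single j 1 := by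
  rw [← Pi.single_smul, smul_eq_mul, mul_one]

theorem smul_split (c : ℂ) (u : Cm n) : c • u = c.re • u + c.im • (I • u) := by
  ext j
  simp only [Pi.smul_apply, Pi.add_apply, smul_eq_mul, real_smul]
  conv_lhs => rw [← re_add_im c]
  ring

/-- the Hermitian form `B(u, v) - i B(iu, v)` -/
def hf (B : Cm n →L[ℝ] Cm n →L[ℝ] ℝ) (u v : Cm n) : ℂ := (B u v : ℂ) - I * (B (I • u) v : ℂ)

/-- its matrix -/
def hmat (B : Cm n →L[ℝ] Cm n →L[ℝ] ℝ) : Matrix (Fin n) (Fin n) ℂ :=
  Matrix.of fun j k => hf B (Pi.single j 1) (Pi.single k 1)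

variable {B : Cm n →L[ℝ] Cm n →L[ℝ] ℝ}

theorem I_I (u : Cm n) : I • I • u = -u := by rw [smul_smul, I_mul_I, neg_one_smul]

theorem I_right (hB : ∀ v w, B (I • v) (I • w) = B v w) (u v : Cm n) :
    B u (I • v) = -B (I • u) v := by
  rw [← hB u, I_I, map_neg]

theorem hf_smul_left (c : ℂ) (u v : Cm n) : hf B (c • u) v = c * hf B u v := by
  unfold hf
  rw [smul_comm I c u, smul_split c u, smul_split c (I • u), I_I]
  simp only [map_add, map_smul, map_neg, _root_.add_apply,
    _root_.smul_apply, _root_.neg_apply, smul_eq_mul]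
  conv_rhs => rw [← re_add_im c]
  push_cast
  linear_combination (c.im * B (I • u) v : ℂ) * I_mul_I

theorem hf_smul_right (hB : ∀ v w, B (I • v) (I • w) = B v w) (c : ℂ) (u v : Cm n) :
    hf B u (c • v) = conj c * hf B u v := by
  unfold hf
  rw [smul_split c v]
  simp only [map_add, map_smul, smul_eq_mul]
  rw [hB, I_right hB]
  have h1 : conj c = c.re - c.im * I := by
    apply Complex.ext <;> simp
  rw [h1]
  push_cast
  linear_combination (-c.im * B (I • u) v : ℂ) * I_mul_I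

theorem hf_sum_left {ι : Type*} (s : Finset ι) (u : ι → Cm n) (v : Cm n) :
    hf B (∑ i ∈ s, u i) v = ∑ i ∈ s, hf B (u i) v := by
  unfold hf
  rw [Finset.smul_sum]
  simp only [map_sum, _root_.sum_apply, ofReal_sum, Finset.mul_sum,
    Finset.sum_sub_distrib]

theorem hf_sum_right {ι : Type*} (s : Finset ι) (u : Cm n) (v : ι → Cm n) :
    hf B u (∑ i ∈ s, v i) = ∑ i ∈ s, hf B u (v i) := by
  unfold hf
  simp only [map_sum, ofReal_sum, Finset.mul_sum, Finset.sum_sub_distrib]

theorem hf_expand (hB : ∀ v w, B (I • v) (I • w) = B v w) (u v : Cm n) :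
    hf B u v = ∑ j, ∑ k, hmat B j k * (u j * conj (v k)) := by
  conv_lhs => rw [pi_eq_sum_univ' u, pi_eq_sum_univ' v]
  rw [hf_sum_left]
  refine Finset.sum_congr rfl fun j _ => ?_
  rw [hf_sum_right]
  refine Finset.sum_congr rfl fun k _ => ?_
  rw [hf_smul_left, hf_smul_right hB, hmat, Matrix.of_apply]
  ring

theorem hf_re (u v : Cm n) : (hf B u v).re = B u v := by simp [hf]

theorem hmat_herm (hB : ∀ v w, B (I • v) (I • w) = B v w) (hs : ∀ v w, B v w = B w v) :
    (hmat B).IsHermitian := by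
  ext j k
  rw [Matrix.conjTranspose_apply, hmat, Matrix.of_apply, Matrix.of_apply, hf, hf,
    hs (I • Pi.single k 1), I_right hB, hs (Pi.single k 1)]
  simp [sub_eq_add_neg]

/-- the quadratic form of a matrix -/
theorem dot_eq (H : Matrix (Fin n) (Fin n) ℂ) (x : Cm n) :
    star x ⬝ᵥ (H *ᵥ x) = ∑ j, ∑ k, H j k * (star x j * conj (star x k)) := by
  simp only [dotProduct, Matrix.mulVec, Finset.mul_sum, Pi.star_apply, RCLike.star_def, conj_conj]
  exact Finset.sum_congr rfl fun j _ => Finset.sum_congr rfl fun k _ => by ring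

theorem dot_im {H : Matrix (Fin n) (Fin n) ℂ} (hH : H.IsHermitian) (x : Cm n) :
    (star x ⬝ᵥ (H *ᵥ x)).im = 0 := by
  have h := hH.im_star_dotProduct_mulVec_self x
  simpa using h

theorem psd {H : Matrix (Fin n) (Fin n) ℂ} (hH : H.IsHermitian) :
    H.PosSemidef ↔ ∀ v : Cm n, 0 ≤ (∑ j, ∑ k, H j k * (v j * conj (v k))).re := by
  rw [Matrix.posSemidef_iff_dotProduct_mulVec]
  constructor
  · intro h v
    have h1 := h.2 (star v)
    rw [dot_eq, star_star] at h1
    exact (Complex.nonneg_iff.1 h1).1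
  · intro h
    refine ⟨hH, fun x => Complex.nonneg_iff.2 ⟨?_, (dot_im hH x).symm⟩⟩
    rw [dot_eq]
    exact h _

theorem hmat_pos (hB : ∀ v w, B (I • v) (I • w) = B v w) (hs : ∀ v w, B v w = B w v)
    (hp : ∀ v, v ≠ 0 → 0 < B v v) : (hmat B).PosDef := by
  refine Matrix.PosDef.of_dotProduct_mulVec_pos (hmat_herm hB hs) fun x hx => ?_
  refine Complex.pos_iff.2 ⟨?_, (dot_im (hmat_herm hB hs) x).symm⟩
  rw [dot_eq, ← hf_expand hB, hf_re]
  exact hp _ (star_ne_zero.2 hx)

/-- change of the Hermitian matrix under a complex linear map -/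
theorem hmat_change {B' : Cm n →L[ℝ] Cm n →L[ℝ] ℝ} (hB' : ∀ v w, B' (I • v) (I • w) = B' v w)
    (T : Cm n →L[ℂ] Cm n) (h : ∀ v w, B v w = B' (T v) (T w)) {J : Matrix (Fin n) (Fin n) ℂ}
    (hJ : ∀ p i, J p i = T (Pi.single i 1) p) :
    hmat B = J.transpose * hmat B' * J.map (starRingEnd ℂ) := by
  ext j k
  have h1 : hmat B j k = hf B' (T (Pi.single j 1)) (T (Pi.single k 1)) := by
    rw [hmat, Matrix.of_apply, hf, hf, h, h, map_smul]
  rw [h1, hf_expand hB', Finset.sum_comm]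
  simp only [Matrix.mul_apply, Matrix.transpose_apply, Matrix.map_apply, Finset.sum_mul, hJ]
  exact Finset.sum_congr rfl fun q _ => Finset.sum_congr rfl fun p _ => by ring

theorem det_pb (J H : Matrix (Fin n) (Fin n) ℂ) :
    (J.transpose * H * J.map (starRingEnd ℂ)).det.re = ‖J.det‖ ^ 2 * H.det.re := by
  have h1 : (J.map (starRingEnd ℂ)).det = conj J.det := by
    rw [RingHom.map_det]; rfl
  have h2 : J.det * conj J.det = ((‖J.det‖ ^ 2 : ℝ) : ℂ) := by
    rw [Complex.mul_conj, Complex.normSq_eq_norm_sq]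
  have h3 : (J.transpose * H * J.map (starRingEnd ℂ)).det = ((‖J.det‖ ^ 2 : ℝ) : ℂ) * H.det := by
    rw [Matrix.det_mul, Matrix.det_mul, Matrix.det_transpose, h1]
    linear_combination H.det * h2
  rw [h3, Complex.re_ofReal_mul]

theorem contDiffAt_det {m : WithTop ℕ∞} {A : Cm n → Matrix (Fin n) (Fin n) ℂ} {z : Cm n}
    (h : ∀ i j, ContDiffAt ℝ m (fun y => A y i j) z) :
    ContDiffAt ℝ m (fun y => (A y).det) z := by
  simp only [Matrix.det_apply]
  refine ContDiffAt.sum fun σ _ => ?_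
  refine ContDiffAt.const_smul _ ?_
  exact contDiffAt_prod fun i _ => h _ _

/-! ### the complex Hessian and the real second derivative -/

theorem fd2 {N : Cm n → ℝ} {z : Cm n} (hN : ContDiffAt ℝ 2 N z) (v w : Cm n) :
    fderiv ℝ (fun y => fderiv ℝ (fun y => (N y : ℂ)) y w) z v =
      (fderiv ℝ (fderiv ℝ N) z v w : ℂ) := by
  have h1 : (fun y => fderiv ℝ (fun y => (N y : ℂ)) y w) =ᶠ[𝓝 z]
      fun y => ofRealCLM (fderiv ℝ N y w) := by
    filter_upwards [hN.eventually (by simp)] with y hy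
    have h2 := ofRealCLM.hasFDerivAt.comp y (hy.differentiableAt two_ne_zero).hasFDerivAt
    exact congrArg (fun T : Cm n →L[ℝ] ℂ => T w) h2.fderiv
  have hd : DifferentiableAt ℝ (fderiv ℝ N) z :=
    (hN.fderiv_right (m := 1) le_rfl).differentiableAt one_ne_zero
  have h3 := ofRealCLM.hasFDerivAt.comp z (hd.hasFDerivAt.clm_apply (hasFDerivAt_const w z))
  rw [h1.fderiv_eq]
  refine (congrArg (fun T : Cm n →L[ℝ] ℂ => T v) h3.fderiv).trans ?_
  simp

theorem levi {N : Cm n → ℝ} {z : Cm n} (hN : ContDiffAt ℝ 2 N z) (v : Cm n) :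
    fderiv ℝ (fderiv ℝ N) z v v + fderiv ℝ (fderiv ℝ N) z (I • v) (I • v) =
      4 * (∑ j, ∑ k, cHess N z j k * (v j * conj (v k))).re := by
  set S := fderiv ℝ (fderiv ℝ N) z with hS
  set m : Cm n →L[ℝ] Cm n := (I • ContinuousLinearMap.id ℂ (Cm n)).restrictScalars ℝ with hm
  have hmv : ∀ u, m u = I • u := fun _ => rfl
  set B : Cm n →L[ℝ] Cm n →L[ℝ] ℝ := S + S.bilinearComp m m with hB
  have hBa : ∀ u w, B u w = S u w + S (I • u) (I • w) := fun u w => by
    rw [hB, _root_.add_apply, _root_.add_apply,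
      ContinuousLinearMap.bilinearComp_apply, hmv, hmv]
  have hBI : ∀ u w, B (I • u) (I • w) = B u w := fun u w => by
    rw [hBa, hBa, I_I, I_I]
    simp [add_comm]
  have h1 : ∀ j k, hmat B j k = 4 * cHess N z j k := by
    intro j k
    rw [hmat, Matrix.of_apply, hf, hBa, hBa, I_I, P272.K.cHess_apply, dz, P272.K.dzb_eq',
      P272.K.fderiv_lin _ _ (P272.K.ofReal_contDiffAt hN),
      P272.K.fderiv_lin _ _ (P272.K.ofReal_contDiffAt hN), fd2 hN, fd2 hN, fd2 hN, fd2 hN,
      single_I, single_I, ← hS]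
    simp only [map_neg, _root_.neg_apply]
    push_cast
    linear_combination (S (I • Pi.single j 1) (I • Pi.single k 1) : ℂ) * I_mul_I
  rw [← hBa, ← hf_re, hf_expand hBI]
  simp only [h1, mul_assoc, ← Finset.mul_sum]
  simp

/-! ### the Kähler condition -/

variable {G : Cm n → Cm n →L[ℝ] Cm n →L[ℝ] ℝ} {U : Set (Cm n)} {z : Cm n}

theorem kahler_id (h : LocalKahler G U) (hz : z ∈ U) (X Y W : Cm n) :
    fderiv ℝ G z X Y W - fderiv ℝ G z (I • X) (I • Y) W = 2 * G z (chris G z X Y) W := by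
  rw [h.fderiv_eq hz, h.fderiv_eq hz, h.par_left hz, h.par z hz, h.par_left hz, h.herm z hz,
    I_I, map_neg, _root_.neg_apply]
  ring

theorem dz_hmat (h : LocalKahler G U) (hz : z ∈ U) (j k l : Fin n) :
    dz l (fun y => hmat (G y) j k) z =
      hf (G z) (chris G z (Pi.single l 1) (Pi.single j 1)) (Pi.single k 1) := by
  have h1 := fun v w => ofRealCLM.hasFDerivAt.comp z (h.hasFDerivAt_apply hz v w)
  have h2 := (h1 (Pi.single j 1) (Pi.single k 1)).sub
    ((h1 (I • Pi.single j 1) (Pi.single k 1)).const_mul I)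
  have h3 : ∀ u, fderiv ℝ (fun y => hmat (G y) j k) z u =
      (fderiv ℝ G z u (Pi.single j 1) (Pi.single k 1) : ℂ) -
        I * (fderiv ℝ G z u (I • Pi.single j 1) (Pi.single k 1) : ℂ) := fun u => by
    refine (congrArg (fun T : Cm n →L[ℝ] ℂ => T u) h2.fderiv).trans ?_
    simp
  have h5 := kahler_id h hz (Pi.single l 1) (Pi.single j 1) (Pi.single k 1)
  have h6 := kahler_id h hz (Pi.single l 1) (I • Pi.single j 1) (Pi.single k 1)
  rw [I_I, map_neg, _root_.neg_apply, h.par z hz] at h6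
  have h7 := congrArg (fun x : ℝ => (x : ℂ)) h5
  have h8 := congrArg (fun x : ℝ => (x : ℂ)) h6
  push_cast at h7 h8
  rw [dz, h3, h3, single_I, hf]
  linear_combination h7 / 2 - I * h8 / 2 +
    (fderiv ℝ G z (I • Pi.single l 1) (I • Pi.single j 1) (Pi.single k 1) : ℂ) / 2 * I_mul_I

theorem hmat_closed (h : LocalKahler G U) (hz : z ∈ U) (j k l : Fin n) :
    dz l (fun y => hmat (G y) j k) z = dz j (fun y => hmat (G y) l k) z := by
  rw [dz_hmat h hz, dz_hmat h hz, h.chris_symm hz]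

theorem hmat_smooth (h : LocalKahler G U) (hz : z ∈ U) (j k : Fin n) :
    ContDiffAt ℝ ∞ (fun y => hmat (G y) j k) z := by
  have h1 : ∀ v w, ContDiffAt ℝ ∞ (fun y => (G y v w : ℂ)) z := fun v w =>
    P272.K.ofReal_contDiffAt (((h.smooth.contDiffAt (h.isOpen.mem_nhds hz)).clm_apply
      contDiffAt_const).clm_apply contDiffAt_const)
  exact (h1 _ _).sub (contDiffAt_const.mul (h1 _ _))

end Vale.Agent.P253Z.MC
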